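import Vale.Agent.P011.H612.Germ.Nrm
import Vale.Agent.P011.H731.Odd.Vas

/-!
Conjugation invariance of the homomorphisms near one, in the module topology.
-/

open Module Filter Topology

set_option linter.unusedSectionVars false

namespace Vale.Agent.P011.H612.Germ

open Vale.Agent.P011.H677.GW
open Vale.Agent.P011.H731.Odd

section inv

variable (k : Type) [Field k] [TopologicalSpace k] [IsTopologicalDivisionRing k] [T2Space k]
variable (A : Type) [Ring A] [Algebra k A] [FiniteDimensional k A]

/-- **A finite dimensional algebra has an inverse near one.** -/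
theorem exists_invNear : ∃ iv : A → A, @InvNear A _ (moduleTopology k A) iv := by
  let tA : TopologicalSpace A := moduleTopology k A
  have hA : IsModuleTopology k A := ⟨rfl⟩
  have hAr : IsTopologicalRing A := IsModuleTopology.isTopologicalRing k A
  let b := finBasis k A
  let M : A → Matrix (Fin (finrank k A)) (Fin (finrank k A)) k := fun x =>
    Algebra.leftMulMatrix b x
  have hM : Continuous M := by
    refine continuous_matrix fun i j => ?_
    exact IsModuleTopology.continuous_of_linearMap
      ((Matrix.entryLinearMap k k i j).comp (Algebra.leftMulMatrix b).toLinearMap)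
  let r : (Fin (finrank k A) → k) →ₗ[k] A := (b.equivFun.symm : _ →ₗ[k] A)
  have hr : Continuous r := IsModuleTopology.continuous_of_linearMap r
  let G : A → A := fun x => r (((M x).det)⁻¹ • ((M x).adjugate.mulVec (b.repr 1)))
  have hM1 : M 1 = 1 := map_one _
  have hdet : Tendsto (fun x => (M x).det) (𝓝 (1 : A)) (𝓝 1) := by
    have h2 := (hM.matrix_det).tendsto 1
    rwa [hM1, Matrix.det_one] at h2
  have hrG : ∀ x, (b.repr (G x) : Fin (finrank k A) → k) =
      ((M x).det)⁻¹ • ((M x).adjugate.mulVec (b.repr 1)) := fun x => by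
    have h1 : b.equivFun (G x) = ((M x).det)⁻¹ • ((M x).adjugate.mulVec (b.repr 1)) :=
      b.equivFun.apply_symm_apply _
    rw [← h1]
    rfl
  have hright : ∀ x : A, (M x).det ≠ 0 → x * G x = 1 := by
    intro x hx
    apply b.repr.injective
    apply DFunLike.coe_injective
    have h2 := Algebra.leftMulMatrix_mulVec_repr b x (G x)
    rw [← h2, hrG x]
    change (M x).mulVec (((M x).det)⁻¹ • ((M x).adjugate.mulVec (b.repr 1))) = _
    rw [Matrix.mulVec_smul, Matrix.mulVec_mulVec, Matrix.mul_adjugate, Matrix.smul_mulVec,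
      Matrix.one_mulVec, smul_smul, inv_mul_cancel₀ hx, one_smul]
  have hleft : ∀ x : A, (M x).det ≠ 0 → G x * x = 1 := by
    intro x hx
    have h1 := hright x hx
    have h2 : Function.Surjective (LinearMap.mulLeft k x) := fun z => ⟨G x * z, by
      rw [LinearMap.mulLeft_apply, ← mul_assoc, h1, one_mul]⟩
    have h3 : Function.Injective (LinearMap.mulLeft k x) :=
      LinearMap.injective_iff_surjective.mpr h2
    apply h3
    rw [LinearMap.mulLeft_apply, LinearMap.mulLeft_apply, ← mul_assoc, h1, one_mul, mul_one]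
  have hne : ∀ᶠ x in 𝓝 (1 : A), (M x).det ≠ 0 := hdet.eventually_ne one_ne_zero
  have hG1 : G 1 = 1 := by
    have h1 := hright 1 (by rw [hM1, Matrix.det_one]; exact one_ne_zero)
    rwa [one_mul] at h1
  refine ⟨G, ⟨hG1, ?_, hne.mono hleft, hne.mono hright⟩⟩
  refine (hr.tendsto _).comp ?_
  refine Tendsto.smul ?_ ?_
  · rw [hM1, Matrix.det_one]
    exact hdet.inv₀ one_ne_zero
  · exact ((hM.matrix_adjugate).matrix_mulVec continuous_const).tendsto 1

variable {A}

/-- **Every homomorphism near one is invariant under conjugation by a fixed unit.** -/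
theorem conj_alg [(𝓝[≠] (0 : k)).NeBot] {E : Type} [AddCommGroup E] {F : A → E} (hF : Good k F)
    {g g' : A} (h1 : g * g' = 1) (h2 : g' * g = 1) : ∀ᶠ x in nb k A, F (g * x * g') = F x := by
  obtain ⟨iv, hiv⟩ := exists_invNear k A
  let tA : TopologicalSpace A := moduleTopology k A
  have hA : IsModuleTopology k A := ⟨rfl⟩
  have hAr : IsTopologicalRing A := IsModuleTopology.isTopologicalRing k A
  have hg : Vale.Agent.P011.H731.Odd.Germ F := by
    unfold Vale.Agent.P011.H731.Odd.Germ
    rw [nhds_prod_eq]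
    exact hF
  have hc : ContinuousAt (algebraMap k A) 0 :=
    (IsModuleTopology.continuous_of_linearMap (Algebra.linearMap k A)).continuousAt
  exact conj_germ_alg hc hg hiv h1 h2

theorem conjP [(𝓝[≠] (0 : k)).NeBot] (E : Type) [AddCommGroup E] : ConjP k E := by
  intro C _ _ _ F hF g hg
  exact conj_alg k hF (mul_inv_cancel₀ hg) (inv_mul_cancel₀ hg)

theorem conjM [(𝓝[≠] (0 : k)).NeBot] (E : Type) [AddCommGroup E] : ConjM k E := by
  intro C _ _ _ r F hF g g' h1 h2
  exact conj_alg k hF h1 h2

end inv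

section small

variable {ι : Type} [Fintype ι] {k : Type} [Field k] [TopologicalSpace k] {a : ι → AbsoluteValue k ℝ}

/-- The point zero is not isolated. -/
theorem Tad.neBot (h : Tad a) {t : k} (ht : t ≠ 0) (h1 : ∀ i, a i t < 1) :
    (𝓝[≠] (0 : k)).NeBot := by
  rw [← mem_closure_iff_nhdsWithin_neBot, mem_closure_iff_nhds]
  intro U hU
  obtain ⟨ε, hε, hεU⟩ := (h.nhds 0 U).mp hU
  obtain ⟨r, hr0, hr1, hr⟩ : ∃ r : ℝ, 0 ≤ r ∧ r < 1 ∧ ∀ i, a i t ≤ r := by
    rcases isEmpty_or_nonempty ι with he | he
    · exact ⟨0, le_rfl, one_pos, fun i => (he.false i).elim⟩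
    · obtain ⟨i0, hi0⟩ := Finite.exists_max fun i => a i t
      exact ⟨a i0 t, (a i0).nonneg _, h1 i0, hi0⟩
  obtain ⟨n, hn⟩ := exists_pow_lt_of_lt_one hε hr1
  refine ⟨t ^ n, hεU _ fun i => ?_, pow_ne_zero n ht⟩
  rw [sub_zero, map_pow]
  exact (pow_le_pow_left₀ ((a i).nonneg _) (hr i) n).trans_lt hn

end small

end Vale.Agent.P011.H612.Germ
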