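import Vale.Agent.P011.H775.Odd.TopNb
import Vale.Agent.P011.H612.Germ.Conj

/-!
The frame of the homomorphisms near one over a field with finitely many absolute values, and over a
number field with finitely many places.
-/

open Module Filter Topology NumberField IsDedekindDomain

set_option linter.unusedSectionVars false
set_option linter.style.haveILetI false

namespace Vale.Agent.P011.H612.Germ

open Vale.Agent.P011.H677.GW
open Vale.Agent.P011.H775.Top
open Vale.Agent.P011.Two Vale.Agent.P011.One Vale.Agent.P011.Even Vale.Agent.P011.Arith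

section gen

variable {k : Type} [Field k] {ι : Type} [Fintype ι] [Nonempty ι] (a : ι → AbsoluteValue k ℝ)

theorem tad_topk (ha : ∀ i, IsNonarchimedean (a i)) : @Tad ι k _ (topk a) a := by
  letI := topk a
  exact ⟨ha, fun x₀ U => topk_mem_nhds_iff a⟩

theorem conjP_topk {t : k} (ht0 : t ≠ 0) (ht : ∀ i, a i t < 1) (E : Type) [AddCommGroup E] :
    @ConjP k _ (topk a) E _ := by
  letI := topk a
  haveI := topk_isTopologicalDivisionRing a
  haveI := topk_t2 a
  haveI := topk_neBot a ht0 ht
  exact conjP k E

theorem conjM_topk {t : k} (ht0 : t ≠ 0) (ht : ∀ i, a i t < 1) (E : Type) [AddCommGroup E] :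
    @ConjM k _ (topk a) E _ := by
  letI := topk a
  haveI := topk_isTopologicalDivisionRing a
  haveI := topk_t2 a
  haveI := topk_neBot a ht0 ht
  exact conjM k E

end gen

section nf

variable {k : Type} [Field k] [NumberField k] (T : Finset (Pl k)) [Nonempty T]

theorem tad_nf (hT : ∀ p ∈ T, ∃ v : HeightOneSpectrum (𝓞 k), p = Sum.inl v) :
    @Tad T k _ (topk (av T)) (av T) := tad_topk (av T) (av_nonarch hT)

theorem neBot_nf : (@nhdsWithin k (topk (av T)) 0 {0}ᶜ).NeBot := by
  obtain ⟨t, ht0, ht⟩ := exists_small_nf T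
  exact topk_neBot (av T) ht0 ht

theorem conjP_nf (E : Type) [AddCommGroup E] : @ConjP k _ (topk (av T)) E _ := by
  obtain ⟨t, ht0, ht⟩ := exists_small_nf T
  exact conjP_topk (av T) ht0 ht E

theorem conjM_nf (E : Type) [AddCommGroup E] : @ConjM k _ (topk (av T)) E _ := by
  obtain ⟨t, ht0, ht⟩ := exists_small_nf T
  exact conjM_topk (av T) ht0 ht E

end nf

end Vale.Agent.P011.H612.Germ
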