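import Vale.Agent.P011.H612.Germ.Inst
import Vale.Agent.P011.H673.NS.Bdd
import Vale.Agent.P011.H327.IntT

/-!
Change of the base field: the module topology of a finite extension is the topology of the places
above the given ones, and the module topologies of an algebra over the two fields agree.
-/

open Module Filter Topology NumberField IsDedekindDomain

set_option linter.unusedSectionVars false
set_option linter.style.haveILetI false

namespace Vale.Agent.P011.H612.Germ

open Vale.Agent.P011.H677.GW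
open Vale.Agent.P011.H775.Top
open Vale.Agent.P011.Two Vale.Agent.P011.One Vale.Agent.P011.Even Vale.Agent.P011.Arith
open Vale.Agent.P011.H673.NS (OTIn NrOT)
open Vale.Agent.P011.H327.TN (OT mem_OT isIntegral_iff)

/-! ### Transitivity of the module topology -/

section trans

variable {k Z C : Type} [Field k] [TopologicalSpace k] [IsTopologicalRing k] [Field Z]
  [Algebra k Z] [Ring C] [Algebra k C] [Algebra Z C] [IsScalarTower k Z C]
  [FiniteDimensional k Z] [FiniteDimensional Z C]

/-- **Transitivity of the module topology.** -/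
theorem moduleTopology_trans :
    (letI := moduleTopology k Z; moduleTopology Z C) = moduleTopology k C := by
  letI tZ : TopologicalSpace Z := moduleTopology k Z
  haveI hZ : IsModuleTopology k Z := ⟨rfl⟩
  haveI hZr : IsTopologicalRing Z := IsModuleTopology.isTopologicalRing k Z
  letI tC : TopologicalSpace C := moduleTopology Z C
  haveI hC : IsModuleTopology Z C := ⟨rfl⟩
  haveI hCa : ContinuousAdd C := IsModuleTopology.toContinuousAdd Z C
  let e : C ≃ₗ[Z] (Fin (finrank Z C) → Z) := (finBasis Z C).equivFun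
  have h1 : Continuous e := IsModuleTopology.continuous_of_linearMap e.toLinearMap
  have h2 : Continuous e.symm := IsModuleTopology.continuous_of_linearMap e.symm.toLinearMap
  let e' : (Fin (finrank Z C) → Z) ≃L[k] C :=
    { toLinearEquiv := (e.symm.restrictScalars k)
      continuous_toFun := h2
      continuous_invFun := h1 }
  haveI h3 : IsModuleTopology k C := IsModuleTopology.iso e'
  exact h3.eq_moduleTopology'

theorem nb_trans :
    (letI := moduleTopology k Z; Vale.Agent.P011.H677.GW.nb Z C) =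
      Vale.Agent.P011.H677.GW.nb k C := by
  unfold Vale.Agent.P011.H677.GW.nb
  rw [← moduleTopology_trans (k := k) (Z := Z) (C := C)]

end trans

/-! ### The neighbourhoods of zero -/

section zero

variable {ι : Type} [Fintype ι] {k : Type} [Field k] [TopologicalSpace k] [IsTopologicalRing k]
  {a : ι → AbsoluteValue k ℝ}
variable {A : Type} [Ring A] [Algebra k A] [FiniteDimensional k A]

theorem Tad.mem_zero (h : Tad a) {U : Set A} : U ∈ @_root_.nhds A (moduleTopology k A) 0 ↔
    ∃ ε : ℝ, 0 < ε ∧ ∀ x, pA a x < ε → x ∈ U := by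
  let tA : TopologicalSpace A := moduleTopology k A
  have hA : IsModuleTopology k A := ⟨rfl⟩
  have hAr : IsTopologicalRing A := IsModuleTopology.isTopologicalRing k A
  have h1 : U ∈ 𝓝 (0 : A) ↔ {x : A | x - 1 ∈ U} ∈ 𝓝 (1 : A) := by
    constructor
    · intro hU
      have hc : Continuous fun x : A => x - 1 := continuous_id.sub continuous_const
      have h2 := hc.continuousAt (x := (1 : A))
      rw [ContinuousAt, sub_self] at h2
      exact h2 hU
    · intro hU
      have hc : Continuous fun x : A => x + 1 := continuous_id.add continuous_const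
      have h2 := hc.continuousAt (x := (0 : A))
      rw [ContinuousAt, zero_add] at h2
      have h3 := h2 hU
      refine Filter.mem_of_superset h3 fun x hx => ?_
      have h4 : x + 1 - 1 ∈ U := hx
      rwa [add_sub_cancel_right] at h4
  have h2 := h.mem_nb (A := A) (U := {x : A | x - 1 ∈ U})
  rw [h1]
  refine Iff.trans h2 ?_
  constructor
  · rintro ⟨ε, hε, h3⟩
    refine ⟨ε, hε, fun x hx => ?_⟩
    have h4 : x + 1 - 1 ∈ U := h3 (x + 1) (by rwa [add_sub_cancel_right])
    rwa [add_sub_cancel_right] at h4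
  · rintro ⟨ε, hε, h3⟩
    exact ⟨ε, hε, fun x hx => h3 _ hx⟩

end zero

/-! ### Number fields -/

section nf

variable {k Z : Type} [Field k] [NumberField k] [Field Z] [NumberField Z] [Algebra k Z]

/-- The places above. -/
def Abv (T : Finset (Pl k)) (T' : Finset (Pl Z)) : Prop :=
  (∀ p ∈ T', ∃ w : HeightOneSpectrum (𝓞 Z), p = Sum.inl w) ∧
    ∀ w : HeightOneSpectrum (𝓞 Z), Sum.inl w ∈ T' ↔ ∃ v : HeightOneSpectrum (𝓞 k),
      Sum.inl v ∈ T ∧ w.asIdeal.comap (algebraMap (𝓞 k) (𝓞 Z)) = v.asIdeal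

theorem exists_abv (T : Finset (Pl k)) [hn : Nonempty T]
    (hT : ∀ p ∈ T, ∃ v : HeightOneSpectrum (𝓞 k), p = Sum.inl v) :
    ∃ T' : Finset (Pl Z), Nonempty T' ∧ Abv T T' := by
  classical
  have hf : {w : HeightOneSpectrum (𝓞 Z) | ∃ v : HeightOneSpectrum (𝓞 k),
      Sum.inl v ∈ T ∧ w.asIdeal.comap (algebraMap (𝓞 k) (𝓞 Z)) = v.asIdeal}.Finite := by
    have h1 : {v : HeightOneSpectrum (𝓞 k) | (Sum.inl v : Pl k) ∈ T}.Finite := by
      refine Set.Finite.of_finite_image (f := (Sum.inl : _ → Pl k)) ?_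
        (Sum.inl_injective.injOn)
      refine T.finite_toSet.subset ?_
      rintro _ ⟨v, hv, rfl⟩
      exact hv
    have h2 : {w : HeightOneSpectrum (𝓞 Z) | ∃ v : HeightOneSpectrum (𝓞 k),
        Sum.inl v ∈ T ∧ w.asIdeal.comap (algebraMap (𝓞 k) (𝓞 Z)) = v.asIdeal} =
        ⋃ v ∈ {v : HeightOneSpectrum (𝓞 k) | (Sum.inl v : Pl k) ∈ T},
          {w : HeightOneSpectrum (𝓞 Z) |
            w.asIdeal.comap (algebraMap (𝓞 k) (𝓞 Z)) = v.asIdeal} := by
      ext w
      rw [Set.mem_iUnion₂]
      constructor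
      · rintro ⟨v, hv, hw⟩
        exact ⟨v, hv, hw⟩
      · rintro ⟨v, hv, hw⟩
        exact ⟨v, hv, hw⟩
    rw [h2]
    exact h1.biUnion fun v _ => above_finite v
  refine ⟨hf.toFinset.image Sum.inl, ?_, ?_, ?_⟩
  · obtain ⟨p⟩ := hn
    obtain ⟨v, hv⟩ := hT p.1 p.2
    obtain ⟨w, hw⟩ := exists_above (E := Z) v
    refine ⟨⟨Sum.inl w, Finset.mem_image_of_mem _ ?_⟩⟩
    rw [Set.Finite.mem_toFinset]
    refine ⟨v, ?_, hw⟩
    rw [← hv]
    exact p.2
  · intro p hp
    obtain ⟨w, -, hw⟩ := Finset.mem_image.mp hp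
    exact ⟨w, hw.symm⟩
  · intro w
    rw [Finset.mem_image]
    constructor
    · rintro ⟨w', hw', hww⟩
      rw [Sum.inl_injective hww] at hw'
      rwa [Set.Finite.mem_toFinset] at hw'
    · intro hw
      exact ⟨w, by rwa [Set.Finite.mem_toFinset], rfl⟩

theorem plAbv_inl_lt_one (v : HeightOneSpectrum (𝓞 k)) (x : k) :
    plAbv (Sum.inl v) x < 1 ↔ v.valuation k x < 1 := by
  have h1 := plAbv_lt v x 1
  rwa [map_one, map_one] at h1

theorem plAbv_inl_le_one (v : HeightOneSpectrum (𝓞 k)) (x : k) :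
    plAbv (Sum.inl v) x ≤ 1 ↔ v.valuation k x ≤ 1 := by
  have h1 := plAbv_lt v 1 x
  rw [map_one, map_one] at h1
  exact not_lt.symm.trans ((not_congr h1).trans not_lt)

/-- The embedding of the base field is continuous at zero. -/
theorem small_above {v : HeightOneSpectrum (𝓞 k)} {w : HeightOneSpectrum (𝓞 Z)}
    (h : w.asIdeal.comap (algebraMap (𝓞 k) (𝓞 Z)) = v.asIdeal) {ε : ℝ} (hε : 0 < ε) :
    ∃ δ : ℝ, 0 < δ ∧ ∀ c : k, plAbv (Sum.inl v) c < δ →
      plAbv (Sum.inl w) (algebraMap k Z c) < ε := by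
  obtain ⟨x, hx0, hx1⟩ := plAbv_nontrivial (F := k) (Sum.inl v)
  obtain ⟨t, ht0, ht1⟩ : ∃ t : k, t ≠ 0 ∧ plAbv (Sum.inl v) t < 1 := by
    rcases lt_or_gt_of_ne hx1 with h1 | h1
    · exact ⟨x, hx0, h1⟩
    · refine ⟨x⁻¹, inv_ne_zero hx0, ?_⟩
      rw [map_inv₀]
      exact inv_lt_one_of_one_lt₀ h1
  have hw1 : plAbv (Sum.inl w) (algebraMap k Z t) < 1 := by
    rw [plAbv_inl_lt_one]
    have h1 := (val_lt_val_iff h t 1).mpr (by
      rw [map_one]
      exact (plAbv_inl_lt_one v t).mp ht1)
    rwa [map_one, map_one] at h1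
  obtain ⟨m, hm⟩ := exists_pow_lt_of_lt_one hε hw1
  refine ⟨plAbv (Sum.inl v) (t ^ m), AbsoluteValue.pos _ (pow_ne_zero m ht0), fun c hc => ?_⟩
  rw [plAbv_lt] at hc
  have h2 : plAbv (Sum.inl w) (algebraMap k Z c) < plAbv (Sum.inl w) (algebraMap k Z (t ^ m)) := by
    rw [plAbv_lt]
    exact (val_lt_val_iff h _ _).mpr hc
  refine h2.trans ?_
  rw [map_pow, map_pow]
  exact hm

variable (T : Finset (Pl k)) (T' : Finset (Pl Z)) [Nonempty T] [Nonempty T']

/-- **The topology of the places above is coarser than the module topology.** -/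
theorem le_topk (h : Abv T T') :
    (letI := topk (av T); moduleTopology k Z) ≤ topk (av T') := by
  classical
  letI tk := topk (av T)
  letI tZ := topk (av T')
  haveI := topk_isTopologicalDivisionRing (av T)
  haveI := topk_isTopologicalDivisionRing (av T')
  have hc0 : ContinuousAt (algebraMap k Z) 0 := by
    rw [ContinuousAt, map_zero]
    intro U hU
    obtain ⟨ε, hε, hεU⟩ := (topk_mem_nhds_iff (av T')).mp hU
    have h1 : ∀ p : T', ∃ δ : ℝ, 0 < δ ∧ ∀ c : k, (∀ q : T, av T q c < δ) →
        av T' p (algebraMap k Z c) < ε := by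
      intro p
      obtain ⟨w, hw⟩ := h.1 p.1 p.2
      obtain ⟨v, hv, hwv⟩ := (h.2 w).mp (hw ▸ p.2)
      obtain ⟨δ, hδ, hδc⟩ := small_above hwv hε
      refine ⟨δ, hδ, fun c hc => ?_⟩
      change plAbv p.1 _ < ε
      rw [hw]
      exact hδc c (hc ⟨Sum.inl v, hv⟩)
    choose δ hδ hδc using h1
    obtain ⟨p0, hp0⟩ := Finite.exists_min δ
    refine (topk_mem_nhds_iff (av T)).mpr ⟨δ p0, hδ p0, fun c hc => ?_⟩
    refine hεU _ fun p => ?_
    rw [sub_zero]
    refine hδc p c fun q => ?_
    have h2 := hc q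
    rw [sub_zero] at h2
    exact h2.trans_le (hp0 p)
  have hc : Continuous (algebraMap k Z) :=
    continuous_of_continuousAt_zero (algebraMap k Z).toAddMonoidHom hc0
  haveI : ContinuousSMul k Z := ⟨by
    have h1 : (fun p : k × Z => p.1 • p.2) = fun p => algebraMap k Z p.1 * p.2 :=
      funext fun p => Algebra.smul_def _ _
    rw [h1]
    exact (hc.comp continuous_fst).mul continuous_snd⟩
  exact moduleTopology_le k Z

theorem otIn (T0 : Set (HeightOneSpectrum (𝓞 k))) (hT0 : T0.Finite) : OTIn (OT T0) where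
  frac := by
    intro a
    have hfin : {v : HeightOneSpectrum (𝓞 k) | ¬ v.valuation k a ≤ 1}.Finite :=
      (HeightOneSpectrum.Support.finite (R := 𝓞 k) (K := k) a).subset fun v hv => by
        simpa [HeightOneSpectrum.Support] using hv
    obtain ⟨n, d, hd, hnd⟩ := IsFractionRing.div_surjective (A := 𝓞 k) a
    refine ⟨algebraMap (𝓞 k) k d, fun v _ => HeightOneSpectrum.valuation_le_one _ _, ?_, ?_⟩
    · exact fun h0 => nonZeroDivisors.ne_zero hd
        ((map_eq_zero_iff _ (IsFractionRing.injective (𝓞 k) k)).mp h0)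
    · have h0 : algebraMap (𝓞 k) k d ≠ 0 := fun h0 => nonZeroDivisors.ne_zero hd
        ((map_eq_zero_iff _ (IsFractionRing.injective (𝓞 k) k)).mp h0)
      rw [← hnd, mul_div_cancel₀ _ h0]
      exact fun v _ => HeightOneSpectrum.valuation_le_one _ _
  int := by
    intro a ha v hv
    have h1 := (isIntegral_iff (K := k) (R := k) hT0 a).mp ha v hv v (by
      ext x
      rw [Ideal.mem_comap]
      refine Eq.to_iff (congrArg (fun y : 𝓞 k => y ∈ v.asIdeal) ?_)
      apply RingOfIntegers.ext
      rfl)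
    exact h1

/-- The elements which are integral at the places above are bounded. -/
theorem exists_bound (hT : ∀ p ∈ T, ∃ v : HeightOneSpectrum (𝓞 k), p = Sum.inl v)
    (h : Abv T T') : ∃ C : ℝ, 0 ≤ C ∧ ∀ z : Z, (∀ p : T', av T' p z ≤ 1) → pA (av T) z ≤ C := by
  classical
  let T0 : Set (HeightOneSpectrum (𝓞 k)) := {v | (Sum.inl v : Pl k) ∈ T}
  have hT0 : T0.Finite := by
    refine Set.Finite.of_finite_image (f := (Sum.inl : _ → Pl k)) ?_ (Sum.inl_injective.injOn)
    refine T.finite_toSet.subset ?_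
    rintro _ ⟨v, hv, rfl⟩
    exact hv
  have hna := av_nonarch hT
  have hsm : ∀ c ∈ OT T0, ∀ p : T, av T p c ≤ 1 := by
    intro c hc p
    obtain ⟨v, hv⟩ := hT p.1 p.2
    change plAbv p.1 c ≤ 1
    rw [hv, plAbv_inl_le_one]
    exact hc v (by change Sum.inl v ∈ T; rw [← hv]; exact p.2)
  have hnr : NrOT (OT T0) (pA (av T) : Z → ℝ) :=
    { nonneg := pA_nonneg _
      zero := pA_zero _
      neg := pA_neg _
      add := pA_add _ hna
      mul := pA_mul _ hna
      smul := fun c hc x => by
        have h1 := pA_smul_le (av T) c x (hsm c hc) zero_le_one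
        rwa [one_mul] at h1
      small := by
        intro δ hδ
        obtain ⟨t, ht0, ht⟩ := exists_small_nf T
        obtain ⟨p0, hp0⟩ := Finite.exists_max fun p : T => av T p t
        obtain ⟨m, hm⟩ := exists_pow_lt_of_lt_one hδ (ht p0)
        refine ⟨t ^ m, ?_, pow_ne_zero m ht0, fun x => ?_⟩
        · intro v hv
          rw [map_pow]
          refine pow_le_one' ?_ m
          exact (plAbv_inl_le_one v t).mp (ht ⟨Sum.inl v, hv⟩).le
        · refine pA_smul_le (av T) _ x (fun p => ?_) hδ.le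
          rw [map_pow]
          exact (pow_le_pow_left₀ ((av T p).nonneg _) (hp0 p) m).trans hm.le }
  obtain ⟨C, hC, hCa⟩ := hnr.bdd (otIn T0 hT0) (AlgHom.id k Z)
  refine ⟨C, hC, fun z hz => hCa z ((isIntegral_iff hT0 z).mpr fun v hv w hw => ?_)⟩
  have h1 : (Sum.inl w : Pl Z) ∈ T' := (h.2 w).mpr ⟨v, hv, hw⟩
  exact (plAbv_inl_le_one w z).mp (hz ⟨Sum.inl w, h1⟩)

/-- **The module topology of a finite extension is the topology of the places above.** -/
theorem topk_above (hT : ∀ p ∈ T, ∃ v : HeightOneSpectrum (𝓞 k), p = Sum.inl v)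
    (h : Abv T T') : topk (av T') = (letI := topk (av T); moduleTopology k Z) := by
  classical
  letI tk := topk (av T)
  haveI hk := topk_isTopologicalDivisionRing (av T)
  haveI hk' := topk_isTopologicalDivisionRing (av T')
  have hTad : Tad (av T) := tad_nf T hT
  have hg : @IsTopologicalAddGroup Z (moduleTopology k Z) _ := by
    letI := moduleTopology k Z
    haveI : IsModuleTopology k Z := ⟨rfl⟩
    haveI := IsModuleTopology.isTopologicalRing k Z
    infer_instance
  have hg' : @IsTopologicalAddGroup Z (topk (av T')) _ := by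
    letI := topk (av T')
    infer_instance
  refine IsTopologicalAddGroup.ext hg' hg ?_
  refine le_antisymm ?_ ?_
  · -- neighbourhoods of the module topology contain balls
    intro U hU
    obtain ⟨ε, hε, hεU⟩ := hTad.mem_zero.mp hU
    obtain ⟨C, hC, hCz⟩ := exists_bound T T' hT h
    obtain ⟨t, ht0, ht⟩ := exists_small_nf T
    obtain ⟨p0, hp0⟩ := Finite.exists_max fun p : T => av T p t
    have hC1 : 0 < ε / (C + 1) := by positivity
    obtain ⟨m, hm⟩ := exists_pow_lt_of_lt_one hC1 (ht p0)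
    have ht0' : algebraMap k Z (t ^ m) ≠ 0 := (_root_.map_ne_zero _).mpr (pow_ne_zero m ht0)
    obtain ⟨q0, hq0⟩ := Finite.exists_min fun q : T' => av T' q (algebraMap k Z (t ^ m))
    refine (topk_mem_nhds_iff (av T')).mpr ⟨_, AbsoluteValue.pos (av T' q0) ht0', fun z hz => ?_⟩
    apply hεU
    have h1 : z = (t ^ m) • ((algebraMap k Z (t ^ m))⁻¹ * z) := by
      rw [Algebra.smul_def, mul_inv_cancel_left₀ ht0']
    have h2 : pA (av T) ((algebraMap k Z (t ^ m))⁻¹ * z) ≤ C := by
      refine hCz _ fun q => ?_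
      have h3 := hz q
      rw [sub_zero] at h3
      have h4 := h3.trans_le (hq0 q)
      rw [map_mul, map_inv₀, inv_mul_le_iff₀ (AbsoluteValue.pos _ ht0'), mul_one]
      exact h4.le
    rw [h1]
    have h5 : pA (av T) ((t ^ m) • ((algebraMap k Z (t ^ m))⁻¹ * z)) ≤
        (av T p0 t) ^ m * pA (av T) ((algebraMap k Z (t ^ m))⁻¹ * z) := by
      refine pA_smul_le (av T) _ _ (fun p => ?_) (pow_nonneg ((av T p0).nonneg _) m)
      rw [map_pow]
      exact pow_le_pow_left₀ ((av T p).nonneg _) (hp0 p) m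
    refine h5.trans_lt ?_
    have h6 := pA_nonneg (av T) ((algebraMap k Z (t ^ m))⁻¹ * z)
    have h7 : (av T p0 t) ^ m * pA (av T) ((algebraMap k Z (t ^ m))⁻¹ * z) ≤
        ε / (C + 1) * C := mul_le_mul hm.le h2 h6 hC1.le
    refine h7.trans_lt ?_
    rw [div_mul_eq_mul_div, div_lt_iff₀ (by positivity)]
    nlinarith
  · exact nhds_mono (le_topk T T' h)

end nf

end Vale.Agent.P011.H612.Germ
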