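import Vale.Agent.P011.H271.Odd.AsmF
import Vale.Agent.P011.H209.Insep.ModIns

/-!
The module on reduced norms one over function fields for the characteristic, in the letters of the
assembly.
-/

namespace Vale.Agent.P011.H612.Germ

open Vale.Agent.P011.H738 Vale.Agent.P011.H271

/-- **The module on reduced norms one over function fields**, for the characteristic. -/
theorem modRWIns {n : ℕ} (hn : n ≠ 0) : H271.Odd.ModRWIns n := by
  intro k K D _ _ _ _ _ _ _ _ _ _ hk hA Ω _ _ f N B T _ _ R hR l hl _ hlk
  haveI := gff_of_isGlobal hk
  exact H209.Insep.modRW_ins (H961.anis_toG hA hn) hA.finrank_eq f B T hR hl hlk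

end Vale.Agent.P011.H612.Germ
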