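import Vale.Agent.P011.H677.GW.Frame

/-!
A field with the topology of finitely many nonarchimedean absolute values: one ultrametric
submultiplicative norm for every finite dimensional algebra.
-/

open Module Filter Topology

set_option linter.unusedSectionVars false

namespace Vale.Agent.P011.H612.Germ

open Vale.Agent.P011.H677.GW

/-- The topology of `k` is the one of the family `a` of nonarchimedean absolute values. -/
structure Tad {ι : Type} {k : Type} [Field k] [TopologicalSpace k] (a : ι → AbsoluteValue k ℝ) :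
    Prop where
  na : ∀ i, IsNonarchimedean (a i)
  nhds : ∀ (x₀ : k) (U : Set k), U ∈ 𝓝 x₀ ↔
    ∃ ε : ℝ, 0 < ε ∧ ∀ x, (∀ i, a i (x - x₀) < ε) → x ∈ U

section alg

variable {ι : Type} [Fintype ι] {k : Type} [Field k] (a : ι → AbsoluteValue k ℝ)
variable {A : Type} [Ring A] [Algebra k A] [FiniteDimensional k A]
variable {B : Type} [Ring B] [Algebra k B] [FiniteDimensional k B]

/-- The matrix of the left multiplication. -/
noncomputable abbrev lm (k : Type) [Field k] {A : Type} [Ring A] [Algebra k A]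
    [FiniteDimensional k A] : A →ₐ[k] Matrix (Fin (finrank k A)) (Fin (finrank k A)) k :=
  Algebra.leftMulMatrix (finBasis k A)

/-- **The norm of a finite dimensional algebra.** -/
noncomputable def pA (x : A) : ℝ :=
  ‖(fun q : ι × Fin (finrank k A) × Fin (finrank k A) => a q.1 (lm k x q.2.1 q.2.2) :
    ι × Fin (finrank k A) × Fin (finrank k A) → ℝ)‖

theorem pA_nonneg (x : A) : 0 ≤ pA a x := norm_nonneg _

theorem pA_le_iff {x : A} {r : ℝ} (hr : 0 ≤ r) :
    pA a x ≤ r ↔ ∀ i l s, a i (lm k x l s) ≤ r := by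
  rw [pA, pi_norm_le_iff_of_nonneg hr]
  constructor
  · intro h i l s
    exact (le_abs_self _).trans (h (i, l, s))
  · intro h q
    rw [Real.norm_eq_abs, abs_of_nonneg (AbsoluteValue.nonneg _ _)]
    exact h q.1 q.2.1 q.2.2

theorem pA_lt_iff {x : A} {r : ℝ} (hr : 0 < r) :
    pA a x < r ↔ ∀ i l s, a i (lm k x l s) < r := by
  rw [pA, pi_norm_lt_iff hr]
  constructor
  · intro h i l s
    exact (le_abs_self _).trans_lt (h (i, l, s))
  · intro h q
    rw [Real.norm_eq_abs, abs_of_nonneg (AbsoluteValue.nonneg _ _)]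
    exact h q.1 q.2.1 q.2.2

theorem entry_le (x : A) (i : ι) (l s : Fin (finrank k A)) : a i (lm k x l s) ≤ pA a x :=
  (pA_le_iff a (pA_nonneg a x)).mp le_rfl i l s

theorem pA_zero : pA a (0 : A) = 0 := by
  refine le_antisymm ((pA_le_iff a le_rfl).mpr fun i l s => ?_) (pA_nonneg a _)
  rw [map_zero, Matrix.zero_apply, map_zero]

theorem pA_neg (x : A) : pA a (-x) = pA a x := by
  unfold pA
  congr 1
  funext q
  rw [map_neg, Matrix.neg_apply, AbsoluteValue.map_neg]

theorem pA_one_le : pA a (1 : A) ≤ 1 := by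
  refine (pA_le_iff a zero_le_one).mpr fun i l s => ?_
  rw [map_one, Matrix.one_apply]
  split_ifs
  · rw [map_one]
  · rw [map_zero]
    exact zero_le_one

theorem abv_sum_le {i : ι} (hi : IsNonarchimedean (a i)) {η : Type} (s : Finset η) (f : η → k)
    {r : ℝ} (hr : 0 ≤ r) (h : ∀ j ∈ s, a i (f j) ≤ r) : a i (∑ j ∈ s, f j) ≤ r := by
  refine Finset.sum_induction f (fun z => a i z ≤ r) (fun x y hx hy => ?_) ?_ h
  · exact (hi x y).trans (max_le hx hy)
  · change a i 0 ≤ r
    rw [map_zero]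
    exact hr

theorem pA_add (ha : ∀ i, IsNonarchimedean (a i)) (x y : A) :
    pA a (x + y) ≤ max (pA a x) (pA a y) := by
  refine (pA_le_iff a ((pA_nonneg a x).trans (le_max_left _ _))).mpr fun i l s => ?_
  rw [map_add, Matrix.add_apply]
  exact (ha i _ _).trans (max_le_max (entry_le a x i l s) (entry_le a y i l s))

theorem pA_sub (ha : ∀ i, IsNonarchimedean (a i)) (x y : A) :
    pA a (x - y) ≤ max (pA a x) (pA a y) := by
  have h := pA_add a ha x (-y)
  rwa [pA_neg, ← sub_eq_add_neg] at h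

theorem pA_mul (ha : ∀ i, IsNonarchimedean (a i)) (x y : A) :
    pA a (x * y) ≤ pA a x * pA a y := by
  have h0 : 0 ≤ pA a x * pA a y := mul_nonneg (pA_nonneg a x) (pA_nonneg a y)
  refine (pA_le_iff a h0).mpr fun i l s => ?_
  rw [map_mul, Matrix.mul_apply]
  refine abv_sum_le a (ha i) _ _ h0 fun j _ => ?_
  rw [map_mul]
  exact mul_le_mul (entry_le a x i l j) (entry_le a y i j s) ((a i).nonneg _) (pA_nonneg a x)

/-- A bound for the coordinates. -/
noncomputable def cB (A : Type) [Ring A] [Algebra k A] [FiniteDimensional k A] : ℝ :=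
  ‖(fun q : ι × Fin (finrank k A) => a q.1 ((finBasis k A).repr 1 q.2) :
    ι × Fin (finrank k A) → ℝ)‖

theorem coord_le (ha : ∀ i, IsNonarchimedean (a i)) (x : A) (i : ι) (j : Fin (finrank k A)) :
    a i ((finBasis k A).repr x j) ≤ cB a A * pA a x := by
  have h1 : (finBasis k A).repr x j = ∑ s, lm k x j s * (finBasis k A).repr 1 s := by
    have h2 := congrFun (Algebra.leftMulMatrix_mulVec_repr (finBasis k A) x 1) j
    rw [mul_one] at h2
    rw [← h2]
    rfl
  have h0 : 0 ≤ cB a A * pA a x := mul_nonneg (norm_nonneg _) (pA_nonneg a x)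
  rw [h1]
  refine abv_sum_le a (ha i) _ _ h0 fun s _ => ?_
  rw [map_mul, mul_comm]
  refine mul_le_mul ?_ (entry_le a x i j s) ((a i).nonneg _) (norm_nonneg _)
  have h3 : ‖a i ((finBasis k A).repr 1 s)‖ ≤ cB a A :=
    norm_le_pi_norm (fun q : ι × Fin (finrank k A) => a q.1 ((finBasis k A).repr 1 q.2)) (i, s)
  exact (le_abs_self _).trans h3

theorem eq_zero_of_pA [Nonempty ι] (ha : ∀ i, IsNonarchimedean (a i)) {x : A}
    (h : pA a x = 0) : x = 0 := by
  obtain ⟨i⟩ := ‹Nonempty ι›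
  have h1 : ∀ j, (finBasis k A).repr x j = 0 := fun j => by
    have h2 := coord_le a ha x i j
    rw [h, mul_zero] at h2
    exact (a i).eq_zero.mp (le_antisymm h2 ((a i).nonneg _))
  rw [← (finBasis k A).sum_repr x]
  exact Finset.sum_eq_zero fun j _ => by rw [h1 j, zero_smul]

/-- **Linear maps are bounded.** -/
theorem pA_lin (ha : ∀ i, IsNonarchimedean (a i)) (φ : A →ₗ[k] B) :
    ∃ C : ℝ, 0 < C ∧ ∀ x, pA a (φ x) ≤ C * pA a x := by
  let c : ℝ := ‖(fun j => pA a (φ (finBasis k A j)) : Fin (finrank k A) → ℝ)‖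
  have hc : ∀ j, pA a (φ (finBasis k A j)) ≤ c := fun j =>
    (le_abs_self _).trans (norm_le_pi_norm (fun j => pA a (φ (finBasis k A j))) j)
  have hc0 : 0 ≤ c := norm_nonneg _
  have hb0 : 0 ≤ cB a A := norm_nonneg _
  refine ⟨cB a A * c + 1, by positivity, fun x => ?_⟩
  have hx := pA_nonneg a x
  have h0 : 0 ≤ (cB a A * c + 1) * pA a x := by positivity
  refine (pA_le_iff a h0).mpr fun i l s => ?_
  have h1 : lm k (φ x) l s =
      ∑ j, (finBasis k A).repr x j * lm k (φ (finBasis k A j)) l s := by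
    conv_lhs => rw [← (finBasis k A).sum_repr x]
    rw [map_sum, map_sum, Matrix.sum_apply]
    refine Finset.sum_congr rfl fun j _ => ?_
    rw [map_smul, map_smul, Matrix.smul_apply, smul_eq_mul]
  rw [h1]
  refine abv_sum_le a (ha i) _ _ h0 fun j _ => ?_
  rw [map_mul]
  have h2 : a i ((finBasis k A).repr x j) * a i (lm k (φ (finBasis k A j)) l s) ≤
      (cB a A * pA a x) * c :=
    mul_le_mul (coord_le a ha x i j) ((entry_le a _ i l s).trans (hc j)) ((a i).nonneg _)
      (mul_nonneg hb0 hx)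
  nlinarith

/-- Multiples by small scalars are small. -/
theorem pA_smul_le (c : k) (x : A) {r : ℝ} (hr : ∀ i, a i c ≤ r) (hr0 : 0 ≤ r) :
    pA a (c • x) ≤ r * pA a x := by
  have hx := pA_nonneg a x
  refine (pA_le_iff a (by positivity)).mpr fun i l s => ?_
  rw [map_smul, Matrix.smul_apply, smul_eq_mul, map_mul]
  exact mul_le_mul (hr i) (entry_le a x i l s) ((a i).nonneg _) hr0

/-- The inverse of a small perturbation of one. -/
theorem pA_inv (ha : ∀ i, IsNonarchimedean (a i)) {x y : A} (hx : pA a x < 1)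
    (hxy : (1 + x) * y = 1) : pA a y ≤ 1 ∧ pA a (y - 1) ≤ pA a x := by
  have h1 : y = 1 - x * y := by
    rw [add_mul, one_mul] at hxy
    rw [← hxy]
    abel
  have h2 : pA a y ≤ 1 := by
    by_contra hn
    push Not at hn
    have h3 : pA a y ≤ max (pA a (1 : A)) (pA a (x * y)) := by
      conv_lhs => rw [h1]
      exact pA_sub a ha _ _
    have h4 : pA a (x * y) < pA a y :=
      (pA_mul a ha x y).trans_lt (by nlinarith [pA_nonneg a x])
    have h5 : pA a (1 : A) < pA a y := (pA_one_le a).trans_lt hn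
    exact absurd h3 (not_le.mpr (max_lt h5 h4))
  refine ⟨h2, ?_⟩
  have h3 : y - 1 = -(x * y) := by
    conv_lhs => rw [h1]
    abel
  rw [h3, pA_neg]
  exact (pA_mul a ha x y).trans (mul_le_of_le_one_right (pA_nonneg a x) h2)

end alg

section top

variable {ι : Type} [Fintype ι] {k : Type} [Field k] [TopologicalSpace k] [IsTopologicalRing k]
  {a : ι → AbsoluteValue k ℝ}
variable {A : Type} [Ring A] [Algebra k A] [FiniteDimensional k A]

theorem Tad.pi_nhds (h : Tad a) {n : ℕ} (y₀ : Fin n → k) {U : Set (Fin n → k)}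
    (hU : U ∈ 𝓝 y₀) : ∃ ε : ℝ, 0 < ε ∧ ∀ y, (∀ i j, a i (y j - y₀ j) < ε) → y ∈ U := by
  rw [nhds_pi, Filter.mem_pi] at hU
  obtain ⟨I, -, t, ht, hI⟩ := hU
  have h1 : ∀ j, ∃ ε : ℝ, 0 < ε ∧ ∀ x, (∀ i, a i (x - y₀ j) < ε) → x ∈ t j := fun j =>
    (h.nhds (y₀ j) (t j)).mp (ht j)
  choose ε hε hεt using h1
  obtain ⟨δ, hδ, hδε⟩ : ∃ δ : ℝ, 0 < δ ∧ ∀ j, δ ≤ ε j := by
    rcases isEmpty_or_nonempty (Fin n) with he | he
    · exact ⟨1, one_pos, fun j => (he.false j).elim⟩
    · obtain ⟨j0, hj0⟩ := Finite.exists_min ε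
      exact ⟨ε j0, hε j0, hj0⟩
  refine ⟨δ, hδ, fun y hy => hI fun j _ => hεt j _ fun i => (hy i j).trans_le (hδε j)⟩

/-- **The neighbourhoods of one in terms of the norm.** -/
theorem Tad.mem_nb (h : Tad a) {U : Set A} :
    U ∈ nb k A ↔ ∃ ε : ℝ, 0 < ε ∧ ∀ x, pA a (x - 1) < ε → x ∈ U := by
  let tA : TopologicalSpace A := moduleTopology k A
  have hA : IsModuleTopology k A := ⟨rfl⟩
  have hAd : ContinuousAdd A := IsModuleTopology.toContinuousAdd k A
  constructor
  · intro hU
    let e := (finBasis k A).equivFun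
    have h1 : Continuous e.symm := IsModuleTopology.continuous_of_linearMap e.symm.toLinearMap
    have h2 : e.symm ⁻¹' U ∈ 𝓝 (e 1) := by
      refine h1.continuousAt.preimage_mem_nhds ?_
      rw [e.symm_apply_apply]
      exact hU
    obtain ⟨ε, hε, hεU⟩ := h.pi_nhds (e 1) h2
    have hb0 : 0 ≤ cB a A := norm_nonneg _
    refine ⟨ε / (cB a A + 1), by positivity, fun x hx => ?_⟩
    have h3 : e x ∈ e.symm ⁻¹' U := by
      refine hεU _ fun i j => ?_
      have h4 : e x j - e 1 j = (finBasis k A).repr (x - 1) j := by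
        rw [map_sub, Finsupp.sub_apply]
        rfl
      rw [h4]
      refine (coord_le a h.na _ i j).trans_lt ?_
      have h5 := pA_nonneg a (x - 1)
      rw [lt_div_iff₀ (by positivity)] at hx
      nlinarith
    have h4 : e.symm (e x) ∈ U := h3
    rwa [e.symm_apply_apply] at h4
  · rintro ⟨ε, hε, hU⟩
    have h1 : ∀ᶠ x in 𝓝 (1 : A), ∀ i l s, a i (lm k (x - 1) l s) < ε := by
      rw [Filter.eventually_all]
      intro i
      rw [Filter.eventually_all]
      intro l
      rw [Filter.eventually_all]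
      intro s
      let φ : A →ₗ[k] k := (Matrix.entryLinearMap k k l s).comp (lm k (A := A)).toLinearMap
      have hφ : Continuous φ := IsModuleTopology.continuous_of_linearMap φ
      have h2 : {z : k | a i (z - φ 1) < ε} ∈ 𝓝 (φ 1) :=
        (h.nhds _ _).mpr ⟨ε, hε, fun z hz => hz i⟩
      have h3 := hφ.continuousAt.preimage_mem_nhds h2
      refine Filter.mem_of_superset h3 fun x hx => ?_
      have h4 : a i (φ x - φ 1) < ε := hx
      have h5 : φ x - φ 1 = lm k (x - 1) l s := by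
        rw [← map_sub]
        rfl
      rw [h5] at h4
      exact h4
    have h2 : ∀ᶠ x in 𝓝 (1 : A), x ∈ U := h1.mono fun x hx => hU x ((pA_lt_iff a hε).mpr hx)
    exact h2

theorem Tad.eventually_nb (h : Tad a) {P : A → Prop} :
    (∀ᶠ x in nb k A, P x) ↔ ∃ ε : ℝ, 0 < ε ∧ ∀ x, pA a (x - 1) < ε → P x :=
  h.mem_nb (U := {x | P x})

theorem Tad.ball_mem_nb (h : Tad a) {ε : ℝ} (hε : 0 < ε) : {x : A | pA a (x - 1) < ε} ∈ nb k A :=
  h.mem_nb.mpr ⟨ε, hε, fun _ hx => hx⟩

end top

end Vale.Agent.P011.H612.Germ
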