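import Vale.Agent.P011.H271.Odd.AsmF
import Vale.Agent.P011.H275.GW8c
import Vale.Agent.P011.H677.NSF.Main
import Vale.Agent.P011.H612.Germ.Inst
import Vale.Agent.P011.H996.Odd.RootT
import Vale.Agent.P011.H605.Odd.GermGood

/-!
**Homomorphisms of finite exponent near one vanish on the elements of reduced norm one**, function
fields, every finite set of places, every degree, exponents prime to the characteristic: the module
`ModRWSep` of the assembly over function fields.
-/

open Module Filter Topology

set_option linter.unusedSectionVars false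
set_option linter.style.haveILetI false

namespace Vale.Agent.P011.H612.Germ

open Vale.Agent.P011.H738 Vale.Agent.P011.H271
open Vale.Agent.P011.H775.Top
open Vale.Agent.P011.W (HasNrd)

section ff

variable {k : Type} [Field k] (T : Finset (Place k)) [Nonempty T]

theorem tad_ff : @Tad T k _ (topk (avF T)) (avF T) := tad_topk (avF T) (avF_nonarch T)

theorem conjP_ff (E : Type) [AddCommGroup E] :
    @Vale.Agent.P011.H677.GW.ConjP k _ (topk (avF T)) E _ := by
  obtain ⟨t, ht0, ht⟩ := exists_small_ff T
  exact conjP_topk (avF T) ht0 ht E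

theorem conjM_ff (E : Type) [AddCommGroup E] :
    @Vale.Agent.P011.H677.GW.ConjM k _ (topk (avF T)) E _ := by
  obtain ⟨t, ht0, ht⟩ := exists_small_ff T
  exact conjM_topk (avF T) ht0 ht E

/-- **Wang's theorem near one over function fields**, exponents prime to the characteristic. -/
theorem rwK_ff [GFF k] {M : ℕ} (hMk : (M : k) ≠ 0) :
    letI := topk (avF T)
    ∀ (A : Type) [AddCommGroup A], (∀ x : A, M • x = 0) → ∀ (K D : Type) [Field K] [Algebra k K]
      [FiniteDimensional k K] [Algebra.IsSeparable k K] [DivisionRing D] [Algebra K D]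
      [Algebra k D] [IsScalarTower k K D] [FiniteDimensional K D] [Algebra.IsCentral K D] (n : ℕ),
      finrank K D = n ^ 2 → ∀ F : D → A, Vale.Agent.P011.H677.GW.Good k F →
        ∀ᶠ x in Vale.Agent.P011.H677.GW.nb k D, HasNrd K n x 1 → F x = 0 := by
  letI := topk (avF T)
  haveI := topk_isTopologicalDivisionRing (avF T)
  haveI := topk_t2 (avF T)
  haveI : Infinite k := Hey.gff_infinite k
  intro A _ hA K D _ _ _ _ _ _ _ _ _ _ n hD F hF
  have hM0 : M ≠ 0 := by
    rintro rfl
    exact hMk Nat.cast_zero
  refine H275.GW8.rw_sep (conjP_ff T A) (conjM_ff T A) (H605.Odd.baseP k A) hM0 hA hMk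
    (fun p hp hpM => H677.NSF.nSurP_ff T hp fun h => hMk ?_)
    (H996.Odd.rootP_tad (avF T) (tad_ff T) hMk) hD hF
  obtain ⟨m, rfl⟩ := hpM
  rw [Nat.cast_mul, h, zero_mul]

end ff

/-- **The module on reduced norms one over function fields**, the primes different from the
characteristic. -/
theorem modRWSep {n : ℕ} (hn : 0 < n) : H271.Odd.ModRWSep n := by
  intro k K D _ _ _ _ _ _ _ _ _ _ hk hA Ω _ _ f N B T _ _ R hR l _ _ hlk
  have hgff := gff_of_isGlobal hk
  have hcen := hA.central
  have hfd : FiniteDimensional K D := Module.finite_of_finrank_pos (by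
    rw [hA.finrank_eq]
    positivity)
  obtain ⟨hfdK, hsep, -⟩ := H519.quad hA.fixed hA.star_ne
  haveI : Infinite K := by
    haveI := Hey.gff_infinite k
    exact Infinite.of_injective _ (algebraMap k K).injective
  refine H271.Odd.modRW_of_near hA.finrank_eq f B hR fun E _ e hE F hF => ⟨1, ?_, ?_⟩
  · exact Nat.coprime_one_left l
  · have hMk : ((l ^ e : ℕ) : k) ≠ 0 := by
      rw [Nat.cast_pow]
      exact pow_ne_zero _ hlk
    have h1 := rwK_ff T hMk E hE K D n hA.finrank_eq F hF
    refine h1.mono fun x hx hn => ?_
    rw [one_smul]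
    exact hx hn

end Vale.Agent.P011.H612.Germ
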