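import Vale.Agent.P011.H612.Germ.RwOf
import Vale.Agent.P011.H275.GW8b
import Vale.Agent.P011.H454.GW.NSur

/-!
**Homomorphisms of finite exponent near one vanish on the elements of reduced norm one**, number
fields, every finite set of finite places, every odd degree.
-/

open Module Filter Topology NumberField IsDedekindDomain

set_option linter.unusedSectionVars false
set_option linter.style.haveILetI false

namespace Vale.Agent.P011.H612.Germ

open Vale.Agent.P011.H775.Top
open Vale.Agent.P011.H627.Odd (ModRWNF)
open Vale.Agent.P011.Two Vale.Agent.P011.One Vale.Agent.P011.Even Vale.Agent.P011.Arith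

/-- **Wang's theorem near one over number fields.** -/
theorem rwK_nf {k : Type} [Field k] [NumberField k] (T : Finset (Pl k)) [Nonempty T]
    (hT : ∀ p ∈ T, ∃ v : HeightOneSpectrum (𝓞 k), p = Sum.inl v) {e : ℕ} (he : e ≠ 0) :
    @RwK k _ (topk (av T)) e := by
  letI := topk (av T)
  haveI := topk_isTopologicalDivisionRing (av T)
  haveI := topk_t2 (av T)
  have hek : (e : k) ≠ 0 := Nat.cast_ne_zero.mpr he
  intro A _ hA K D _ _ _ _ _ _ _ _ _ n hn hD F hF
  exact H275.GW8.rw_near' (conjP_nf T A) (conjM_nf T A) (H605.Odd.baseP k A)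
    (H454.GW.nSurNear_nf T hT) he hA hek (H996.Odd.rootP_tad (av T) (tad_nf T hT) hek) hD hn hF

/-- **The module on reduced norms one of the skeleton over number fields.** -/
theorem modRW_nf : ∀ n, 3 ≤ n → Odd n → ModRWNF n :=
  modRWNF_of fun _ _ _ T _ hT _ he => rwK_nf T hT he

end Vale.Agent.P011.H612.Germ
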