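import Vale.Agent.P011.H612.Germ.Inst
import Vale.Agent.P011.H996.Odd.RootT
import Vale.Agent.P011.H605.Odd.GermGood
import Vale.Agent.P011.H627.Odd.SolvNF

/-!
Homomorphisms near one vanish on the elements of reduced norm one, number fields: the assembly.
-/

open Module Filter Topology NumberField IsDedekindDomain

set_option linter.unusedSectionVars false
set_option linter.style.haveILetI false

namespace Vale.Agent.P011.H612.Germ

open Vale.Agent.P011.H677.GW (ConjP ConjM BaseP NSurNear RootP Good)
open Vale.Agent.P011.H775.Top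
open Vale.Agent.P011.H627.Odd (ModRW ModRWNF GoodT)
open Vale.Agent.P011.Two Vale.Agent.P011.One Vale.Agent.P011.Even Vale.Agent.P011.Arith
open Vale.Agent.P011.W (HasNrd)

/-- Homomorphisms of finite exponent near one vanish on the elements of reduced norm one. -/
def RwK (k : Type) [Field k] [TopologicalSpace k] (M : ℕ) : Prop :=
  ∀ (A : Type) [AddCommGroup A], (∀ x : A, M • x = 0) → ∀ (K D : Type) [Field K] [Algebra k K]
    [FiniteDimensional k K] [DivisionRing D] [Algebra K D] [Algebra k D] [IsScalarTower k K D]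
    [FiniteDimensional K D] [Algebra.IsCentral K D] (n : ℕ), Odd n → finrank K D = n ^ 2 →
    ∀ F : D → A, Vale.Agent.P011.H677.GW.Good k F → ∀ᶠ x in Vale.Agent.P011.H677.GW.nb k D, HasNrd K n x 1 → F x = 0

/-- **From the frame over `k` to the letters of the skeleton.** -/
theorem modRW_of {k : Type} [Field k] [NumberField k] (T : Finset (Pl k)) [Nonempty T]
    {e : ℕ} (h : @RwK k _ (topk (av T)) e) {K D : Type} [Field K] [Algebra k K]
    [FiniteDimensional k K] [DivisionRing D] [Algebra K D] [Algebra k D] [IsScalarTower k K D]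
    [FiniteDimensional K D] [Algebra.IsCentral K D] {n : ℕ} (hn : Odd n)
    (hD : finrank K D = n ^ 2) {κ : Type} [Fintype κ] (B : Basis κ k D) {N : D →* K}
    (hN : ∀ x, HasNrd K n x (N x)) : ModRW N (@nhds D (topD B (av T)) 1) e := by
  intro E _ P hE hP
  letI tk := topk (av T)
  have h1 : Vale.Agent.P011.H677.GW.nb k D = @nhds D (topD B (av T)) 1 := nb_eq B (av T)
  have hG : Vale.Agent.P011.H677.GW.Good k P := by
    unfold Vale.Agent.P011.H677.GW.Good
    rw [h1]
    exact hP
  have h2 := h E hE K D n hn hD P hG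
  rw [h1] at h2
  refine h2.mono fun x hx hx1 => hx ?_
  have h3 := hN x
  rwa [hx1] at h3

/-- The module on reduced norms one, in the letters of the skeleton. -/
theorem modRWNF_of (h : ∀ (k : Type) [Field k] [NumberField k] (T : Finset (Pl k)) [Nonempty T],
    (∀ p ∈ T, ∃ v : HeightOneSpectrum (𝓞 k), p = Sum.inl v) → ∀ e : ℕ, e ≠ 0 →
      @RwK k _ (topk (av T)) e) : ∀ n, 3 ≤ n → Odd n → ModRWNF n := by
  intro n _ hn k K D _ _ _ _ _ _ _ _ _ _ _ d s hS hdeg M B T _ hT N hN e he
  haveI := hS.fin
  haveI := hS.cen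
  haveI : FiniteDimensional k K := by
    refine Module.finite_of_finrank_pos ?_
    rw [hS.rank]
    exact two_pos
  exact modRW_of T (h k T (fun p hp => by
    obtain ⟨v, hv, -⟩ := hT.fin p hp
    exact ⟨v, hv⟩) e he) hn hdeg B hN

end Vale.Agent.P011.H612.Germ
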